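import Mathlib

/-! The three-dimensional one-species relativistic Vlasov-Maxwell system: data and global classical solutions. -/

namespace Vale.Agent.P107

open MeasureTheory Set Filter Topology
open scoped ContDiff

/-- Euclidean three-space. -/
abbrev V3 := EuclideanSpace ℝ (Fin 3)

/-- The particle energy `sqrt (1 + |v|^2)`. -/
noncomputable def q (v : V3) : ℝ := Real.sqrt (1 + ‖v‖ ^ 2)

/-- The relativistic velocity `v / q v`. -/
noncomputable def u (v : V3) : V3 := (q v)⁻¹ • v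

/-- The vector product. -/
noncomputable def cross (a b : V3) : V3 :=
  !₂[a 1 * b 2 - a 2 * b 1, a 2 * b 0 - a 0 * b 2, a 0 * b 1 - a 1 * b 0]

/-- The partial derivative of the `j`-th component of a vector field in the direction `i`. -/
noncomputable def pd (F : V3 → V3) (i j : Fin 3) (x : V3) : ℝ :=
  fderiv ℝ F x (EuclideanSpace.single i 1) j

/-- The divergence. -/
noncomputable def div (F : V3 → V3) (x : V3) : ℝ := pd F 0 0 x + pd F 1 1 x + pd F 2 2 x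

/-- The curl. -/
noncomputable def curl (F : V3 → V3) (x : V3) : V3 :=
  !₂[pd F 1 2 x - pd F 2 1 x, pd F 2 0 x - pd F 0 2 x, pd F 0 1 x - pd F 1 0 x]

/-- A smooth square integrable vector field, bounded together with all its derivatives. -/
structure GoodField (F : V3 → V3) : Prop where
  smooth : ContDiff ℝ ∞ F
  sq_int : MemLp F 2 volume
  bounded : ∀ n : ℕ, ∃ C : ℝ, ∀ x, ‖iteratedFDeriv ℝ n F x‖ ≤ C

/-- A smooth admissible datum. -/
structure Admissible (f0 : V3 × V3 → ℝ) (E0 B0 : V3 → V3) : Prop where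
  smooth : ContDiff ℝ ∞ f0
  compact : HasCompactSupport f0
  nonneg : ∀ z, 0 ≤ f0 z
  goodE : GoodField E0
  goodB : GoodField B0
  gaussE : ∀ x, div E0 x = ∫ v, f0 (x, v)
  gaussB : ∀ x, div B0 x = 0

/-- `F` belongs to `C([0,∞); L^2)`. -/
structure ContL2 (F : ℝ × V3 → V3) : Prop where
  mem : ∀ t, 0 ≤ t → MemLp (fun x => F (t, x)) 2 volume
  cont : ∀ t, 0 ≤ t →
    Tendsto (fun s => eLpNorm (fun x => F (s, x) - F (t, x)) 2 volume) (𝓝[Ici 0] t) (𝓝 0)

/-- A classical solution on `[0,∞)` with the given initial values. Time derivatives are taken within `[0,∞)`. -/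
structure GlobalSolution (f0 : V3 × V3 → ℝ) (E0 B0 : V3 → V3)
    (f : ℝ × V3 × V3 → ℝ) (E B : ℝ × V3 → V3) : Prop where
  f_c1 : ContDiffOn ℝ 1 f (Ici 0 ×ˢ univ)
  E_c1 : ContDiffOn ℝ 1 E (Ici 0 ×ˢ univ)
  B_c1 : ContDiffOn ℝ 1 B (Ici 0 ×ˢ univ)
  nonneg : ∀ t, 0 ≤ t → ∀ x v, 0 ≤ f (t, x, v)
  vlasov : ∀ t, 0 ≤ t → ∀ x v,
    derivWithin (fun s => f (s, x, v)) (Ici 0) t + fderiv ℝ (fun y => f (t, y, v)) x (u v)
      + fderiv ℝ (fun w => f (t, x, w)) v (E (t, x) + cross (u v) (B (t, x))) = 0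
  ampere : ∀ t, 0 ≤ t → ∀ x,
    derivWithin (fun s => E (s, x)) (Ici 0) t - curl (fun y => B (t, y)) x
      = -∫ v, f (t, x, v) • u v
  faraday : ∀ t, 0 ≤ t → ∀ x,
    derivWithin (fun s => B (s, x)) (Ici 0) t + curl (fun y => E (t, y)) x = 0
  gaussE : ∀ t, 0 ≤ t → ∀ x, div (fun y => E (t, y)) x = ∫ v, f (t, x, v)
  gaussB : ∀ t, 0 ≤ t → ∀ x, div (fun y => B (t, y)) x = 0
  init_f : ∀ x v, f (0, x, v) = f0 (x, v)
  init_E : ∀ x, E (0, x) = E0 x
  init_B : ∀ x, B (0, x) = B0 x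
  E_l2 : ContL2 E
  B_l2 : ContL2 B
  supp : ∀ T : ℝ, ∃ S : Set (V3 × V3), IsCompact S ∧
    ∀ t ∈ Icc 0 T, ∀ z : V3 × V3, f (t, z) ≠ 0 → z ∈ S

end Vale.Agent.P107
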